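import Vale.Agent.P014T.Lk.Ell
import Vale.Agent.P014T.An.Mel
import Vale.Agent.P014T.Lc.Np
import Vale.Agent.P004T.Nrn
import Vale.Agent.P004Z.EF.All
import Vale.Agent.P004N.H3.Cusp

/-! # P014T: modularity, twists, and the leading term of `L(E, s)` as an integral -/

set_option autoImplicit false
set_option linter.all false

open Filter Topology WeierstrassCurve UpperHalfPlane
open scoped NumberTheorySymbols

noncomputable section

namespace Vale.Agent.P014T.Lk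

open P004N P004N.T8 P004N.H169 Vale.Agent.P014T.Sm
open P004M.TE (al)
open P004T (ds ds_spec)
open An (M0 M1 cp Gd)

variable {E E' : WeierstrassCurve ℚ} {A B : ℤ} {u r s t u' r' s' t' : ℚ} {p N S δ : ℕ} {G : ℍ → ℂ}
  {a : ℕ → ℤ} {L : ℂ → ℂ} {ε : ℝ}

/-- modularity (the text of `P004M.MODE`) -/
def MD : Prop := ∀ A B : ℤ, 4 * A ^ 3 + 27 * B ^ 2 ≠ 0 →
  ∃ (M : ℕ) (f : P004N.T8.CF M) (c : ℕ → ℤ), 0 < M ∧ P004N.QE f (fun n => (c n : ℂ)) ∧ c 1 = 1 ∧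
    (∀ p : ℕ, p.Prime → ¬ p ∣ M → ∀ n,
      c (p * n) + (if p ∣ n then (p : ℤ) * c (n / p) else 0) = c p * c n) ∧
    {p : ℕ | p.Prime ∧ al A B p ≠ c p}.Finite

theorem ex_lat (h : RN N G a) : ∃ Λ : PeriodPair, Lat N a Λ := by
  obtain ⟨ε, nf⟩ := P004Z.Ar.nf_of_rn h
  obtain ⟨c, Λ, e, -, k⟩ := P004T.nrn N 1 G _ ε nf one_pos fun p _ _ => ⟨a p, rfl⟩
  obtain rfl : a = c := funext fun n => Int.cast_injective (α := ℝ) (congrFun e n)
  exact ⟨Λ, k⟩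

theorem mod0 (hM : MD) (hD : 4 * A ^ 3 + 27 * B ^ 2 ≠ 0) :
    ∃ N G a, RN N G a ∧ {p : ℕ | p.Prime ∧ al A B p ≠ a p}.Finite := by
  obtain ⟨M, f, c, h0, h1, h2, h3, h4⟩ := hM A B hD
  obtain ⟨N, G, a, ε, k1, -, k2, -⟩ := P004Z.EF.new M f c ⟨h0, s2_of_cusp h0 f, h1, h2,
    fun p hp k n => by
      have := h3 p hp k n
      beta_reduce
      split_ifs at this ⊢ <;> exact_mod_cast this⟩
  refine ⟨N, G, a, P004T.rn_of_nf k1, (h4.union M.primeFactors.finite_toSet).subset fun p k => ?_⟩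
  by_cases e : p ∣ M
  · exact Or.inr (Nat.mem_primeFactors.2 ⟨k.1, e, h0.ne'⟩)
  · exact Or.inl ⟨k.1, k2 p (k.1.coprime_iff_not_dvd.2 e) ▸ k.2⟩

/-- **the newform of `E`** -/
theorem mod (hM : MD) [E.IsElliptic] (hm : Md E A B u r s t) :
    ∃ N G a Λ S, RN N G a ∧ Lat N a Λ ∧ N ∣ S ∧ bd A B ∣ S ∧ At E a S ∧
      {p : ℕ | p.Prime ∧ al A B p ≠ a p}.Finite :=
  let ⟨N, G, a, h, f⟩ := mod0 hM hm.hD
  let ⟨S, a1, a2, a3⟩ := at_fin hm h f
  let ⟨Λ, k⟩ := ex_lat h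
  ⟨N, G, a, Λ, S, h, k, a1, a2, a3, f⟩

/-! ### twists -/

theorem nf_tw (h : NF N G (fun n => (a n : ℝ)) ε) (ho : Odd δ) (hs : Squarefree δ)
    (hc : N.Coprime δ) : ∃ G', NF (N * δ ^ 2) G' (fun n => ((a n * J(n | δ) : ℤ) : ℝ))
      (ε * (J(-N | δ) : ℤ)) := by
  obtain ⟨e1, e2⟩ := ds_spec ho
  have := H65.twNF h (D := ds δ) (Or.inl ⟨e1, Int.squarefree_natAbs.1 (e2.symm ▸ hs)⟩) (by
    rw [Int.isCoprime_iff_gcd_eq_one]
    show Nat.gcd N (ds δ).natAbs = 1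
    rw [e2]; exact hc)
  simpa only [P004H.H871.kr_one_mod e1, e2, Int.cast_mul] using this

/-- **the twist of a newform** -/
theorem rn_tw (h : RN N G a) (ho : Odd δ) (hs : Squarefree δ) (hc : N.Coprime δ) :
    ∃ G', RN (N * δ ^ 2) G' fun n => a n * J(n | δ) :=
  let ⟨_, nf⟩ := P004Z.Ar.nf_of_rn h
  let ⟨G', k⟩ := nf_tw nf ho hs hc
  ⟨G', P004T.rn_of_nf k⟩

/-- **the twist of the curve** -/
theorem At.ds [E.IsElliptic] [E'.IsElliptic] (hm : Md E A B u r s t) (ho : Odd δ)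
    (hm' : Md E' (A * ds δ ^ 2 : ℤ) (B * ds δ ^ 3 : ℤ) u' r' s' t') (h : At E a S)
    (hb : bd A B ∣ S) : At E' (fun n => a n * J(n | δ)) (S * δ) := by
  obtain ⟨e1, e2⟩ := ds_spec ho
  have k := At.tw hm hm' h hb
  rw [e2] at k
  refine ⟨k.1, fun n c => ?_⟩
  have : 2 ∣ S * δ := (((Int.natAbs_dvd_natAbs.2 (dvd_mul_right 2 _)).trans hb)).mul_right _
  rw [k.2 n c]
  beta_reduce
  rw [jac e1 (Nat.coprime_two_right.1 (c.coprime_dvd_right this)), e2]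

/-! ### values -/

theorem rn_gd (h : RN N G a) : Gd fun n => (a n : ℂ) :=
  An.gd h.pos h.s2 h.qe (by simp [h.zero])

theorem rn_lh (h : RN N G a) : ∃ M, IsLh (fun n => (a n : ℝ)) M ∧
    An.Ct (fun n => (a n : ℂ)) M := by
  obtain ⟨M, k1, k2⟩ := (rn_gd h).ex
  exact ⟨M, ⟨k1, by simpa only [Complex.ofReal_intCast] using k2⟩, ((rn_gd h).val k1 k2).1⟩

/-- **the `L`-function exists** -/
theorem ex (hM : MD) (E : WeierstrassCurve ℚ) [E.IsElliptic] : ∃ L, IsEll E L := by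
  obtain ⟨A, B, u, r, s, t, hm⟩ := ex_md E
  obtain ⟨N, G, a, -, S, h, -, -, -, k, -⟩ := mod hM hm
  obtain ⟨M, m, -⟩ := rn_lh h
  exact ex_ell h k m

/-- **order and leading term against the form** -/
theorem val (h : RN N G a) (ht : At E a S) (hL : IsEll E L) :
    (analyticOrderAt L 1 = 0 ↔ M0 (fun n => (a n : ℂ)) ≠ 0) ∧
    (analyticOrderAt L 1 = 1 ↔ M0 (fun n => (a n : ℂ)) = 0 ∧ M1 (fun n => (a n : ℂ)) ≠ 0) ∧
    (∏ p ∈ S.primeFactors, P1 (cE E) p : ℝ) * L 1 =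
      (∏ p ∈ S.primeFactors, P1 (fun n => (a n : ℝ)) p : ℝ) * M0 (fun n => (a n : ℂ)) ∧
    (M0 (fun n => (a n : ℂ)) = 0 → (∏ p ∈ S.primeFactors, P1 (cE E) p : ℝ) * deriv L 1 =
      (∏ p ∈ S.primeFactors, P1 (fun n => (a n : ℝ)) p : ℝ) * M1 (fun n => (a n : ℂ))) := by
  obtain ⟨M, m, c⟩ := rn_lh h
  obtain ⟨o, l⟩ := lk h ht hL m
  obtain ⟨v0, v1⟩ := c.val (rn_gd h)
  refine ⟨o ▸ (c.ord (rn_gd h)).1, o ▸ (c.ord (rn_gd h)).2, by simpa [v0] using l 0 (by simp),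
    fun z => ?_⟩
  have := l 1 (by
    rw [o, Nat.cast_one, Order.one_le_iff_ne_zero]
    exact fun e => (c.ord (rn_gd h)).1.1 e z)
  rwa [iteratedDeriv_one, iteratedDeriv_one, v1 (v0.trans z)] at this

theorem rn_rl (h : RN N G a) (hp : p.Prime) :
    An.Rl (fun n => (a n : ℂ)) p (a p) ((a p ^ 2 - a (p ^ 2) : ℤ) : ℂ) := fun n => by
  have := (rel (rn_ldr h) hp).2 n
  beta_reduce at this ⊢
  split_ifs at this ⊢ <;> exact_mod_cast this

theorem rn_cp (h : RN N G a) (S0 : S ≠ 0) : Gd (cp S fun n => (a n : ℂ)) :=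
  ((rn_gd h).dep (α := fun p => a p) (ρ := fun p => ((a p ^ 2 - a (p ^ 2) : ℤ) : ℂ)) S S0
    fun p m => rn_rl h (Nat.prime_of_mem_primeFactors m)).1

/-- **leading term against the depleted form** -/
theorem vald (h : RN N G a) (ht : At E a S) (hL : IsEll E L) :
    (∏ p ∈ S.primeFactors, P1 (cE E) p : ℝ) * L 1 = M0 (cp S fun n => (a n : ℂ)) ∧
    (L 1 = 0 → (∏ p ∈ S.primeFactors, P1 (cE E) p : ℝ) * deriv L 1 =
      M1 (cp S fun n => (a n : ℂ))) := by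
  have g := rn_cp h ht.1
  obtain ⟨M, k1, k2⟩ := g.ex
  obtain ⟨-, v0, v1⟩ := g.val k1 k2
  obtain ⟨-, o, l⟩ := dep ht hL (M := M) ⟨k1, fun s k => by
    rw [k2 s k]
    refine tsum_congr fun n => ?_
    unfold cp inc
    split_ifs <;> simp⟩
  have l0 := l 0 (by simp)
  rw [iteratedDeriv_zero, iteratedDeriv_zero] at l0
  refine ⟨l0.symm.trans v0, fun z => ?_⟩
  have := l 1 (by
    rw [Nat.cast_one, Order.one_le_iff_ne_zero]
    exact fun e => (An.ord_le (hL.1 1 m1)).1.1 e z)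
  rw [iteratedDeriv_one, iteratedDeriv_one, v1 (by rw [l0, z, mul_zero])] at this
  exact this.symm

/-- with the same coefficients everywhere -/
theorem val1 (h : RN N G a) (e : ∀ n, E.LFunction n = a n) (hL : IsEll E L) :
    L 1 = M0 (fun n => (a n : ℂ)) ∧ (L 1 = 0 → deriv L 1 = M1 fun n => (a n : ℂ)) := by
  simpa [An.cp_one] using vald h (S := 1) ⟨one_ne_zero, fun n _ => e n⟩ hL

/-- the Euler factor of a global minimal equation -/
theorem P1_np (W : WeierstrassCurve ℤ) (hΔ : W.Δ ≠ 0)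
    (hm : P014.GlobalMinimal (W.map (Int.castRingHom ℚ))) (hp : p.Prime) :
    P1 (cE (W.map (Int.castRingHom ℚ))) p = Lc.np W p / p := by
  obtain ⟨h1, h2⟩ := Lc.lf_all W hΔ hm hp
  have h3 := h2 0
  have q : (p : ℝ) ≠ 0 := Nat.cast_ne_zero.2 hp.ne_zero
  rw [zero_add, zero_add, pow_one, pow_zero, (Lf.lf_mul _).map_one] at h3
  rw [P1, cE, cE, h3, h1]
  push_cast
  field_simp
  ring

/-- the Euler factor of a newform -/
theorem P1_rn (h : RN N G a) (hp : p.Prime) :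
    P1 (fun n => (a n : ℝ)) p = (p + (if p ∣ N then 0 else 1) - a p) / p := by
  have C := H461.pfCf N G a h
  have q : (p : ℝ) ≠ 0 := Nat.cast_ne_zero.2 hp.ne_zero
  rw [P1]
  split_ifs with k
  · have := C.bad p hp k 1
    rw [pow_one] at this
    rw [this]
    push_cast
    field_simp
    ring
  · have := C.good p hp k 0
    rw [zero_add, zero_add, pow_one, pow_zero, C.one] at this
    rw [this]
    push_cast
    field_simp
    ring

end Vale.Agent.P014T.Lk
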