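import Vale.Agent.P014T.Lk.Eul
import Vale.Agent.P004N.H169.Ell
import Vale.Agent.P014T.Ht.Sh
import Vale.Agent.P004Z.Ar.Unf
import Vale.Agent.P014T.Lc.Lf
import Vale.Agent.P004M.TE.All

/-! # P014T: the `L`-function of an elliptic curve and its newform -/

set_option autoImplicit false
set_option linter.all false

open Filter Topology WeierstrassCurve UpperHalfPlane IsDiscreteValuationRing
open scoped NumberTheorySymbols

noncomputable section

namespace Vale.Agent.P014T.Lk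

open P004N P004N.T8 P004N.H169 P004N.H169.LF Vale.Agent.P014T.Vc Vale.Agent.P014T.Sm
open P004M.TE (al)
open Vale.Agent.P004H.H871 (kr Fd kr_odd)

theorem lp_smul {p : ℕ} {R : Type} [CommRing R] [IsDomain R] [IsDiscreteValuationRing R] {K : Type}
    [Field K] [Algebra R K] [IsFractionRing R K] (hL : Lf.Loc p R) (W : WeierstrassCurve K)
    (hW : W.Δ ≠ 0) (C : VariableChange K) : (C • W).localPolynomial R = W.localPolynomial R := by
  classical
  obtain ⟨C₁, hC₁⟩ := Lf.M1.Im_map (R := R) W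
  have hC₂ : (C₁ * C⁻¹) • (C • W) = (Lf.M1.Im R W).map (algebraMap R K) := by
    rw [mul_smul, inv_smul_smul, hC₁]
  have nz : ∀ (V : VariableChange K) (W₁ : WeierstrassCurve R),
      V • W = W₁.map (algebraMap R K) → W₁.Δ ≠ 0 := fun V W₁ hV h0 => by
    have h1 := congrArg WeierstrassCurve.Δ hV
    rw [variableChange_Δ, WeierstrassCurve.map_Δ, h0, map_zero] at h1
    exact mul_ne_zero (pow_ne_zero 12 (V.u⁻¹).ne_zero) hW h1
  by_cases h1 : IsUnit (Lf.M1.Im R W).Δ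
  · rw [Lf.M1.pfLocGood p R K hL _ _ _ hC₁ h1, Lf.M1.pfLocGood p R K hL _ _ _ hC₂ h1]
  by_cases h2 : IsUnit (Lf.M1.Im R W).c₄
  · rw [Lf.locMult _ _ _ hC₁ h2 (nz _ _ hC₁) h1, Lf.locMult _ _ _ hC₂ h2 (nz _ _ hC₁) h1]
  have key : ∀ (V : VariableChange K) (W₁ : WeierstrassCurve R),
      V • W = W₁.map (algebraMap R K) → ¬ IsUnit W₁.Δ ∧ ¬ IsUnit W₁.c₄ := fun V W₁ hV =>
    ⟨fun h3 => h1 (Lf.M1.unit_model W V W₁ hV h3).1, fun h3 => h2 (by
      obtain ⟨D', hD'⟩ := Lf.unit_c₄_model W V W₁ hV h3 (nz _ _ hV)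
      rw [← hD', variableChange_c₄]
      exact ((D'.u⁻¹).isUnit.pow 4).mul h3)⟩
  rw [Lf.M1.pfLocAdd p R K hL _ key, Lf.M1.pfLocAdd p R K hL _ fun V W₁ hV =>
    key (V * C) W₁ (by rw [mul_smul, hV])]

/-- **isomorphic curves have the same `L`-function** -/
theorem lf_smul (E : WeierstrassCurve ℚ) (hE : E.Δ ≠ 0) (C : VariableChange ℚ) :
    (C • E).LFunction = E.LFunction := by
  refine ArithmeticFunction.IsMultiplicative.eq_iff_eq_on_prime_powers _ (Lf.lf_mul _) _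
    (Lf.lf_mul _) |>.2 fun p k hp => ?_
  rw [Lf.lf_pow _ p hp, Lf.lf_pow _ p hp, Lf.lp, Lf.lp, WeierstrassCurve.baseChange,
    WeierstrassCurve.baseChange, ← WeierstrassCurve.map_variableChange,
    lp_smul (Lf.M2.pfLoc p hp) _ (by rw [map_Δ]; exact (map_ne_zero _).2 hE)]

theorem ch_eq {F : Type} [Field F] {V W : WeierstrassCurve F} {u r s t : F} (h : Ch V W u r s t) :
    V = (⟨Units.mk0 u h.ne, r, s, t⟩ : VariableChange F) • W := by
  have k := h.ne
  ext <;> simp only [variableChange_a₁, variableChange_a₂, variableChange_a₃, variableChange_a₄,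
    variableChange_a₆, Units.val_inv_eq_inv_val, Units.val_mk0]
  · rw [← h.a1]; field_simp
  · rw [← h.a2]; field_simp
  · rw [← h.a3]; field_simp
  · rw [← h.a4]; field_simp
  · rw [← h.a6]; field_simp

variable {E E' : WeierstrassCurve ℚ} {A B d : ℤ} {u r s t : ℚ} {p N S : ℕ} {G : ℍ → ℂ}
  {a : ℕ → ℤ} {L L' M : ℂ → ℂ}

theorem al_eq (A B : ℤ) (n : ℕ) : al A B n = (sw (A : ℚ) (B : ℚ)).LFunction n := by
  rw [← tw_one]; rfl

theorem nd (hp : p.Prime) (h : ¬ (p : ℤ) ∣ 2 * (4 * A ^ 3 + 27 * B ^ 2)) :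
    ¬ (p : ℤ) ∣ (sw A B).Δ := by
  have hp' := Nat.prime_iff_prime_int.1 hp
  rw [sw_Δ, show -16 * (4 * A ^ 3 + 27 * B ^ 2) = -(2 ^ 3 * (2 * (4 * A ^ 3 + 27 * B ^ 2))) by
    ring, dvd_neg]
  exact fun k => h ((hp'.dvd_or_dvd k).elim (fun e => (hp'.dvd_of_dvd_pow e).mul_right _) id)

theorem lf_ch {V W : WeierstrassCurve ℚ} (h : Ch V W u r s t) (hW : W.Δ ≠ 0) :
    V.LFunction = W.LFunction := by
  rw [ch_eq h, lf_smul W hW]

/-- **any model against the short model** -/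
theorem lf_md [E.IsElliptic] (h : Md E A B u r s t) (n : ℕ) : E.LFunction n = al A B n := by
  rw [al_eq, lf_ch h (by
    have := h.hD
    show (sw (A : ℚ) (B : ℚ)).Δ ≠ 0
    rw [sw_Δ]
    exact mul_ne_zero (by norm_num) (by exact_mod_cast this))]
  rfl

theorem al_rec (hp : p.Prime) (hg : ¬ (p : ℤ) ∣ 2 * (4 * A ^ 3 + 27 * B ^ 2)) (k : ℕ) :
    al A B (p ^ (k + 2)) = al A B p * al A B (p ^ (k + 1)) - p * al A B (p ^ k) := by
  have := (LFunction_good (sw A B) hp (nd hp hg)).2 k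
  rw [sw_map] at this
  simp only [al_eq]
  exact this

/-- the coefficients of `E` are those of `a` outside `S` -/
def At (E : WeierstrassCurve ℚ) (a : ℕ → ℤ) (S : ℕ) : Prop :=
  S ≠ 0 ∧ ∀ n : ℕ, n.Coprime S → E.LFunction n = a n

theorem At.mono (h : At E a S) {S' : ℕ} (h0 : S' ≠ 0) (hd : S ∣ S') : At E a S' :=
  ⟨h0, fun n k => h.2 n (k.coprime_dvd_right hd)⟩

theorem At.fin (h : At E a S) : {p : ℕ | p.Prime ∧ E.LFunction p ≠ a p}.Finite :=
  S.primeFactors.finite_toSet.subset fun p k => Nat.mem_primeFactors.2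
    ⟨k.1, by_contra fun e => k.2 (h.2 p (k.1.coprime_iff_not_dvd.2 e)), h.1⟩

theorem At.inc (h : At E a S) : inc S (cE E) = inc S fun n => (a n : ℝ) := by
  funext n
  unfold T8.inc cE
  split_ifs with k
  · rw [h.2 n k]
  · rfl

/-- the bad primes of the short model -/
def bd (A B : ℤ) : ℕ := (2 * (4 * A ^ 3 + 27 * B ^ 2)).natAbs

theorem bd_ne (h : 4 * A ^ 3 + 27 * B ^ 2 ≠ 0) : bd A B ≠ 0 :=
  Int.natAbs_ne_zero.2 (mul_ne_zero two_ne_zero h)

theorem nbd (h : ¬ p ∣ bd A B) : ¬ (p : ℤ) ∣ 2 * (4 * A ^ 3 + 27 * B ^ 2) :=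
  fun k => h (Int.natCast_dvd.1 k)

theorem mult {a : ℕ → ℤ} (S0 : S ≠ 0) (a0 : a 0 = 0) (a1 : a 1 = 1)
    (am : ∀ m n : ℕ, m.Coprime n → a (m * n) = a m * a n)
    (h : ∀ p : ℕ, p.Prime → ¬ p ∣ S → ∀ k : ℕ, E.LFunction (p ^ k) = a (p ^ k)) : At E a S := by
  refine ⟨S0, fun n k => ?_⟩
  rcases eq_or_ne n 0 with rfl | n0
  · rw [a0, ArithmeticFunction.map_zero]
  have := eq_of_pow (u := cE E) (v := fun n => (a n : ℝ)) (cE_ldr E).one (by simp [a1])
    (cE_ldr E).mul (fun m n c => by simp [am m n c]) (B := S)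
    (fun p hp k j => by rw [cE, h p hp k]) n n0 k
  unfold cE at this
  exact_mod_cast this

theorem pw {u v : ℕ → ℤ} (u1 : u 1 = 1) (v1 : v 1 = 1) (h1 : u p = v p)
    (hu : ∀ k : ℕ, u (p ^ (k + 2)) = u p * u (p ^ (k + 1)) - p * u (p ^ k))
    (hv : ∀ k : ℕ, v (p ^ (k + 2)) = v p * v (p ^ (k + 1)) - p * v (p ^ k)) (k : ℕ) :
    u (p ^ k) = v (p ^ k) ∧ u (p ^ (k + 1)) = v (p ^ (k + 1)) := by
  induction k with
  | zero => simp [u1, v1, h1]
  | succ k ih => exact ⟨ih.2, by rw [hu k, hv k, ih.1, ih.2, h1]⟩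

/-- from almost all primes to all integers prime to `S` -/
theorem at_of [E.IsElliptic] (hm : Md E A B u r s t) (h : RN N G a) (S0 : S ≠ 0) (hN : N ∣ S)
    (hb : bd A B ∣ S) (hf : ∀ p : ℕ, p.Prime → ¬ p ∣ S → al A B p = a p) : At E a S :=
  have C := H461.pfCf N G a h
  mult S0 C.zero C.one C.mul fun p hp k j => by
    have g := nbd fun e => k (e.trans hb)
    rw [lf_md hm]
    exact (pw (LFunction_mult _).map_one C.one (hf p hp k) (al_rec hp g)
      (C.good p hp fun e => k (e.trans hN)) j).1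

theorem at_fin [E.IsElliptic] (hm : Md E A B u r s t) (h : RN N G a)
    (hf : {p : ℕ | p.Prime ∧ al A B p ≠ a p}.Finite) : ∃ S, N ∣ S ∧ bd A B ∣ S ∧ At E a S := by
  refine ⟨N * bd A B * ∏ p ∈ hf.toFinset, p, (dvd_mul_right _ _).mul_right _,
    (dvd_mul_left _ _).mul_right _, at_of hm h (mul_ne_zero (mul_ne_zero h.pos.ne' (bd_ne hm.hD))
      (Finset.prod_ne_zero_iff.2 fun p m => (hf.mem_toFinset.1 m).1.ne_zero))
      ((dvd_mul_right _ _).mul_right _) ((dvd_mul_left _ _).mul_right _) fun p hp k => ?_⟩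
  by_contra e
  exact k ((Finset.dvd_prod_of_mem _ (hf.mem_toFinset.2 ⟨hp, e⟩)).mul_left _)

theorem At.fin_al [E.IsElliptic] (hm : Md E A B u r s t) (h : At E a S) :
    {p : ℕ | p.Prime ∧ al A B p ≠ a p}.Finite := by
  simpa only [lf_md hm] using h.fin

/-! ### twists -/

theorem md_tw (A B d : ℤ) : Md (tw A B d) (A * d ^ 2 : ℤ) (B * d ^ 3 : ℤ) 1 0 0 0 := by
  rw [Int.cast_mul, Int.cast_mul, Int.cast_pow, Int.cast_pow]
  exact Ch.refl _

theorem al_tw (A B d : ℤ) (n : ℕ) : al (A * d ^ 2) (B * d ^ 3) n = (tw A B d).LFunction n := by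
  rw [al_eq, tw_eq]
  push_cast
  rfl

theorem al_prime (hp : p.Prime) (hg : ¬ p ∣ bd A B) (hd : ¬ p ∣ d.natAbs) :
    al (A * d ^ 2) (B * d ^ 3) p = al A B p * J(d | p) := by
  have : Fact p.Prime := ⟨hp⟩
  rw [al_tw, tw_eq, LFunction_twist A B d hp (nd hp (nbd hg)) fun k => hd (Int.natCast_dvd.1 k),
    al_eq, jacobiSym.legendreSym.to_jacobiSym, mul_comm]

theorem bd_tw (A B d : ℤ) : bd (A * d ^ 2) (B * d ^ 3) = bd A B * d.natAbs ^ 6 := by
  rw [bd, bd, ← Int.natAbs_pow, ← Int.natAbs_mul]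
  congr 1
  ring

/-- **the coefficients of a quadratic twist** -/
theorem al_twist (hD : 4 * A ^ 3 + 27 * B ^ 2 ≠ 0) (d0 : d ≠ 0) (n : ℕ)
    (hn : n.Coprime (bd A B * d.natAbs)) : al (A * d ^ 2) (B * d ^ 3) n = al A B n * J(d | n) := by
  rw [al_tw]
  refine (mult (E := tw A B d) (a := fun n => al A B n * J(d | n))
    (mul_ne_zero (bd_ne hD) (Int.natAbs_ne_zero.2 d0)) ?_ ?_ (fun m n c => ?_)
    fun p hp k j => ?_).2 n hn
  · rw [show al A B 0 = 0 from ArithmeticFunction.map_zero, zero_mul]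
  · rw [show al A B 1 = 1 from (LFunction_mult _).map_one, jacobiSym.one_right, one_mul]
  · rcases eq_or_ne m 0 with rfl | m0
    · simp [show al A B 0 = 0 from ArithmeticFunction.map_zero]
    rcases eq_or_ne n 0 with rfl | n0
    · simp [show al A B 0 = 0 from ArithmeticFunction.map_zero]
    rw [show al A B (m * n) = al A B m * al A B n from (LFunction_mult _).map_mul_of_coprime c,
      jacobiSym.mul_right' _ m0 n0]
    ring
  have g : ¬ p ∣ bd A B := fun e => k (e.mul_right _)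
  have g' : ¬ p ∣ d.natAbs := fun e => k (e.mul_left _)
  have j2 : J(d | p) ^ 2 = 1 := jacobiSym.sq_one (by
    rw [Int.gcd_comm]; exact hp.coprime_iff_not_dvd.2 g')
  rw [← al_tw]
  refine (pw (u := al (A * d ^ 2) (B * d ^ 3)) (v := fun n => al A B n * J(d | n))
    (LFunction_mult _).map_one ?_ (al_prime hp g g') (al_rec hp (nbd ?_)) (fun i => ?_) j).1
  · rw [show al A B 1 = 1 from (LFunction_mult _).map_one, jacobiSym.one_right, one_mul]
  · rw [bd_tw]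
    exact fun e => ((Nat.Prime.dvd_mul hp).1 e).elim g fun e => g' (hp.dvd_of_dvd_pow e)
  · simp only [jacobiSym.pow_right, al_rec hp (nbd g)]
    linear_combination -(p * al A B (p ^ i) * J(d | p) ^ i) * j2

/-- `E'` is the twist of `E` by `d` -/
theorem At.tw [E.IsElliptic] [E'.IsElliptic] {u' r' s' t' : ℚ} (hm : Md E A B u r s t)
    (hm' : Md E' (A * d ^ 2 : ℤ) (B * d ^ 3 : ℤ) u' r' s' t') (h : At E a S) (hb : bd A B ∣ S) :
    At E' (fun n => a n * J(d | n)) (S * d.natAbs) := by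
  have d0 : d ≠ 0 := by
    rintro rfl
    exact hm'.hD (by simp)
  refine ⟨mul_ne_zero h.1 (Int.natAbs_ne_zero.2 d0), fun n k => ?_⟩
  rw [lf_md hm', al_twist hm.hD d0 n (k.coprime_dvd_right (mul_dvd_mul_right hb _)), ← lf_md hm,
    h.2 n (k.coprime_dvd_right (dvd_mul_right _ _))]

/-- reciprocity: `d ≡ 1` modulo `4` -/
theorem jac (h : d % 4 = 1) {n : ℕ} (hn : Odd n) : J(d | n) = J(n | d.natAbs) :=
  (Vale.Agent.P004H.H871.recip h hn).symm

/-! ### the continuation -/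

theorem IsEll.lh (h : IsEll E L) : IsLh (cE E) L := (isCont_iff _ _).1 h.isCont

theorem hw (h : P014.IsHasseWeil E L) : IsEll E L := ⟨fun s _ => h.1.analyticAt s, h.2⟩

theorem IsEll.uniq (h : IsEll E L) (h' : IsEll E L') : (∀ s : ℂ, 1 ≤ s.re → L s = L' s) ∧
    analyticOrderAt L 1 = analyticOrderAt L' 1 ∧
      ∀ r, iteratedDeriv r L 1 = iteratedDeriv r L' 1 :=
  ⟨((IsEll.lh h).order_eq (IsEll.lh h')).1, ((IsEll.lh h).order_eq (IsEll.lh h')).2,
    der (IsEll.lh h) (IsEll.lh h')⟩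

theorem ell_of (h : RN N G a) (ht : At E a S) (hL : IsLh (cE E) L) : IsEll E L := by
  obtain ⟨ε, nf⟩ := P004Z.Ar.nf_of_rn h
  obtain ⟨C, -, hC⟩ := H449.pfN0N N G _ ε nf
  refine ⟨hL.1, fun s hs => ?_⟩
  have := IsLh.hasSum (cE_ldr E) ht.1 (fun s hs => by
    rw [ht.inc]
    exact inc_summable (LSeriesSummable_of_sum_norm_bigO (H503.Sum.bigO ⟨C, hC⟩) (by norm_num)
      hs)) hL s hs
  simpa only [cE, Complex.ofReal_intCast] using this

theorem rn_ldr (h : RN N G a) : LDr fun n => (a n : ℝ) :=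
  let ⟨_, nf⟩ := P004Z.Ar.nf_of_rn h
  nf.ldr

theorem rn_le (h : RN N G a) (hp : p.Prime) : |(a p : ℝ)| ≤ p := by
  obtain ⟨_, nf⟩ := P004Z.Ar.nf_of_rn h
  have : |a p| < p + 1 := by exact_mod_cast nf.lt hp
  exact_mod_cast Int.lt_add_one_iff.1 this

/-- **existence**, from any continuation of the depleted series -/
theorem ex_dep (h : RN N G a) (ht : At E a S) (hM : IsLh (inc S fun n => (a n : ℝ)) M) :
    IsEll E fun s => M s / Pe (cE E) S s :=
  ell_of h ht (up (cE_ldr E) ht.1 (fun p hp _ => cE_le E hp) (ht.inc ▸ hM))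

theorem ex_ell (h : RN N G a) (ht : At E a S) (hM : IsLh (fun n => (a n : ℝ)) M) :
    ∃ L, IsEll E L := ⟨_, ex_dep h ht (down (rn_ldr h) ht.1 hM)⟩

/-- **`L(E, s)` against the depleted series** -/
theorem dep (ht : At E a S) (hL : IsEll E L) (hM : IsLh (inc S fun n => (a n : ℝ)) M) :
    (∀ s : ℂ, 1 ≤ s.re → M s = Pe (cE E) S s * L s) ∧
    analyticOrderAt M 1 = analyticOrderAt L 1 ∧ ∀ r : ℕ, (r : ℕ∞) ≤ analyticOrderAt L 1 →
      iteratedDeriv r M 1 = (∏ p ∈ S.primeFactors, P1 (cE E) p : ℝ) * iteratedDeriv r L 1 :=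
  eul (cE_ldr E) ht.1 (fun p hp _ => cE_le E hp) (IsEll.lh hL) (ht.inc ▸ hM)

/-- **`L(E, s)` against `L(G, s)`** -/
theorem lk (h : RN N G a) (ht : At E a S) (hL : IsEll E L) (hM : IsLh (fun n => (a n : ℝ)) M) :
    analyticOrderAt L 1 = analyticOrderAt M 1 ∧ ∀ r : ℕ, (r : ℕ∞) ≤ analyticOrderAt L 1 →
      (∏ p ∈ S.primeFactors, P1 (cE E) p : ℝ) * iteratedDeriv r L 1 =
        (∏ p ∈ S.primeFactors, P1 (fun n => (a n : ℝ)) p : ℝ) * iteratedDeriv r M 1 :=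
  cmp (cE_ldr E) (rn_ldr h) ht.1 (fun p hp _ => cE_le E hp) (fun p hp _ => rn_le h hp) ht.inc
    (IsEll.lh hL) hM

end Vale.Agent.P014T.Lk
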