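import Vale.Agent.P014T.St
import Vale.Agent.P014T.Rk.Lwc
import Vale.Agent.P014T.Ig.All
import Vale.Agent.P014T.Rp.Per

/-! # P014T: the modular symbols and the real period -/

set_option autoImplicit false
set_option linter.all false

open Filter Topology UpperHalfPlane
open scoped MatrixGroups

noncomputable section

namespace Vale.Agent.P014T.Lk

open P004N (RN)
open P004Z (ee)
open P027H (IsLat g2 g3 exists_unif)
open Top Rk
open Lc (Wq)
open Es (cv LL)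

variable {A B : ℤ} {N w : ℕ} {G I : ℍ → ℂ} {a : ℕ → ℤ} {Λ : Submodule ℤ ℂ}
  {x y : P022.H218.L3.Mer}

/-- **the shape of the lattice of the short model** -/
theorem w0_shape (hΛ : IsLat Λ) (h2 : g2 Λ = -4 * A) (h3 : g3 Λ = -4 * B) :
    0 < w0 A B ∧ ∃ v : ℝ, 0 < v ∧ ∀ z, z ∈ Λ ↔ ∃ m n : ℤ, z = m * w0 A B +
      n * ((if 4 * A ^ 3 + 27 * B ^ 2 < 0 then 0 else w0 A B / 2 : ℝ) + v * Complex.I) := by
  obtain ⟨t, v, t0, v0, k, e⟩ := Rp.rp (Wq (sI A B)) hΛ one_pos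
    (by rw [h2]; simp [sI, WeierstrassCurve.c₄, WeierstrassCurve.b₂, WeierstrassCurve.b₄]; ring)
    (by rw [h3]; simp [sI, WeierstrassCurve.c₆, WeierstrassCurve.b₂, WeierstrassCurve.b₄,
      WeierstrassCurve.b₆]; ring)
  have d : 0 < (Wq (sI A B)).Δ ↔ 4 * A ^ 3 + 27 * B ^ 2 < 0 := by
    rw [show (Wq (sI A B)).Δ = ((-16 * (4 * A ^ 3 + 27 * B ^ 2) : ℤ) : ℚ) by
      simp [sI, WeierstrassCurve.Δ, WeierstrassCurve.b₂, WeierstrassCurve.b₄, WeierstrassCurve.b₆,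
        WeierstrassCurve.b₈]; ring, Int.cast_pos]
    omega
  obtain rfl : t = w0 A B := by
    rw [w0, e, Bt.p0]
    simp only [d]
    split_ifs <;> simp
  simp only [d] at k
  exact ⟨t0, v, v0, k⟩

theorem ex_lam (h : El A B) : ∃ Λ, IsLat Λ ∧ g2 Λ = -4 * A ∧ g3 Λ = -4 * B :=
  let ⟨Λ, a, b, c, _⟩ := exists_unif A B (by exact_mod_cast h)
  ⟨Λ, a, b, c⟩

theorem w0_pos (h : El A B) : 0 < w0 A B :=
  let ⟨_, a, b, c⟩ := ex_lam h
  (w0_shape a b c).1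

theorem w0_mem (hΛ : IsLat Λ) (h2 : g2 Λ = -4 * A) (h3 : g3 Λ = -4 * B) : (w0 A B : ℂ) ∈ Λ :=
  let ⟨_, _, _, k⟩ := w0_shape hΛ h2 h3
  (k _).2 ⟨1, 0, by simp⟩

/-- real parts -/
theorem re_w0 (hΛ : IsLat Λ) (h2 : g2 Λ = -4 * A) (h3 : g3 Λ = -4 * B) {z : ℂ} (hz : z ∈ Λ) :
    ∃ k : ℤ, 2 * z.re = k * w0 A B := by
  obtain ⟨-, v, -, k⟩ := w0_shape hΛ h2 h3
  obtain ⟨m, n, rfl⟩ := (k z).1 hz
  split_ifs
  · exact ⟨2 * m, by simp; ring⟩
  · exact ⟨2 * m + n, by simp; ring⟩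

/-- real elements -/
theorem real_w0 (hΛ : IsLat Λ) (h2 : g2 Λ = -4 * A) (h3 : g3 Λ = -4 * B) {t : ℝ}
    (hz : (t : ℂ) ∈ Λ) : ∃ k : ℤ, t = k * w0 A B := by
  obtain ⟨-, v, v0, k⟩ := w0_shape hΛ h2 h3
  obtain ⟨m, n, e⟩ := (k _).1 hz
  have := congrArg Complex.im e
  simp only [Complex.ofReal_im, Complex.add_im, Complex.mul_im, Complex.intCast_re,
    Complex.intCast_im, Complex.ofReal_re, Complex.I_im, Complex.I_re, mul_zero, zero_mul, add_zero,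
    zero_add, mul_one, zero_eq_mul, Int.cast_eq_zero, v0.ne', or_false] at this
  rw [this, Int.cast_zero, zero_mul, add_zero] at e
  exact ⟨m, by exact_mod_cast e⟩

/-- the symbols lie in the lattice of the values at the cusps -/
theorem lw_mem (h : RN N G a) (p : Pu.ParY N a A B w I x y) (r : ℚ) :
    ∃ z ∈ LL I, (Lw a fun n => ee (n * r)) = w * z := by
  obtain ⟨A', B', Λ, x', y', q⟩ := p.par
  obtain ⟨g, e, e'⟩ := (Int.isCoprime_iff_gcd_eq_one.2 r.reduced :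
    IsCoprime r.num (r.den : ℤ)).exists_SL2_col 0
  have := An.cusp h.pos h.s2 h.qe (by simp [h.zero]) g (by rw [e']; exact_mod_cast r.den_nz)
    (((Es.tend h q g).const_mul (w : ℂ)).congr fun z => by
      rw [p.I_eq, mul_div_cancel₀ _ (Nat.cast_ne_zero.2 p.wpos.ne')])
  rw [e, e'] at this
  exact ⟨_, Es.cv_mem I g, by rw [Lw_eq, ← this]; simp [Rat.cast_def]⟩

/-- **the symbols have bounded denominators in the lattice of the curve** -/
theorem lw_lat (f : Nf A B N G a) (hΛ : IsLat Λ) (h2 : g2 Λ = -4 * A) (h3 : g3 Λ = -4 * B) :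
    ∃ D : ℕ, D ≠ 0 ∧ ∀ r : ℚ, (D * Lw a fun n => ee (n * r)) ∈ Λ := by
  obtain ⟨A', B', w, I, x, y, p⟩ := Pu.ex_parY f.rn
  obtain ⟨n, n0, k⟩ := Ig.isog hΛ h2 h3 p.lat p.g2_eq p.g3_eq ((f.fin.union p.mat).subset
    fun l m => by
      by_contra e
      simp only [Set.mem_union, Set.mem_setOf_eq, m.1, true_and, not_or, not_not] at e
      exact m.2 (e.1.trans e.2.symm))
  refine ⟨n, n0.ne', fun r => ?_⟩
  obtain ⟨z, m, e⟩ := lw_mem f.rn p r
  rw [e, mul_left_comm, ← nsmul_eq_mul]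
  exact Λ.smul_of_tower_mem w (k z m)

/-- **rationality of the real parts** -/
theorem hd (h : El A B) (f : Nf A B N G a) : ∃ D : ℕ, D ≠ 0 ∧
    ∀ r : ℚ, ∃ k : ℤ, D * (Lw a fun n => ee (n * r)).re = k * w0 A B := by
  obtain ⟨Λ, a1, a2, a3⟩ := ex_lam h
  obtain ⟨D, D0, k⟩ := lw_lat f a1 a2 a3
  refine ⟨2 * D, mul_ne_zero two_ne_zero D0, fun r => (re_w0 a1 a2 a3 (k r)).imp fun j e => ?_⟩
  rw [← e]
  simp [mul_assoc]

/-- **rationality of the central value** -/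
theorem rat0 (h : El A B) (f : Nf A B N G a) : ∃ ρ : ℚ, Lw a 1 = ρ * w0 A B := by
  obtain ⟨D, D0, k⟩ := hd h f
  obtain ⟨j, e⟩ := k 0
  have c : (fun n : ℕ => ee (n * ((0 : ℚ) : ℂ))) = 1 := funext fun n => by simp [ee]
  rw [c] at e
  have r : Lw a 1 = (Lw a 1).re := by
    refine (Complex.conj_eq_iff_re.1 ?_).symm
    rw [Lw, map_mul, ← integral_conj]
    congr 1
    · simp [map_ofNat]
    · refine congrArg _ (funext fun t => ?_)
      rw [Complex.conj_tsum]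
      exact tsum_congr fun n => by
        rw [map_mul, Complex.conj_ofReal, map_mul, map_intCast, Pi.one_apply, map_one]
  refine ⟨j / D, ?_⟩
  have : (D : ℂ) ≠ 0 := Nat.cast_ne_zero.2 D0
  rw [r, Rat.cast_div, Rat.cast_intCast, Rat.cast_natCast, div_mul_eq_mul_div, eq_div_iff this,
    mul_comm]
  exact_mod_cast e

/-- the coefficients of the curve and of the form agree away from a finite set of primes -/
theorem al_off (h : El A B) (f : Nf A B N G a) : ∃ S₀, Pm S₀ ∧ ∀ S, S₀ ⊆ S →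
    (∀ p : ℕ, p.Prime → p ∣ N * bd A B → p ∈ S) ∧
    (∀ n : ℕ, n.Coprime (∏ p ∈ S, p) → P004M.TE.al A B n = a n) ∧
    ∀ c, Lw (P004M.TE.al A B) (cS S c) = Lw a (An.cp (∏ p ∈ S, p) c) := by
  have m : Sm.Md (Wq (sI A B)) A B 1 0 0 0 := by constructor <;> simp [sI]
  have : (Wq (sI A B)).IsElliptic := ⟨Ne.isUnit (by
    rw [show (Wq (sI A B)).Δ = ((-16 * (4 * A ^ 3 + 27 * B ^ 2) : ℤ) : ℚ) by
      simp [sI, WeierstrassCurve.Δ, WeierstrassCurve.b₂, WeierstrassCurve.b₄, WeierstrassCurve.b₆,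
        WeierstrassCurve.b₈]; ring]
    exact Int.cast_ne_zero.2 (mul_ne_zero (by norm_num) h))⟩
  obtain ⟨M, a1, a2, a3⟩ := at_fin m f.rn f.fin
  refine ⟨M.primeFactors, fun p => Nat.prime_of_mem_primeFactors, fun S k => ?_⟩
  have d : ∀ p : ℕ, p.Prime → p ∣ M → p ∈ S := fun p hp e =>
    k (Nat.mem_primeFactors.2 ⟨hp, e, a3.1⟩)
  have e : ∀ n : ℕ, n.Coprime (∏ p ∈ S, p) → P004M.TE.al A B n = a n := fun n c => by
    rw [← lf_md m, a3.2 n (Nat.coprime_of_dvd fun p hp x y => hp.ne_one (Nat.eq_one_of_dvd_coprimes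
      c x (Finset.dvd_prod_of_mem _ (d p hp y))))]
  refine ⟨fun p hp x => d p hp ((hp.dvd_mul.1 x).elim (·.trans a1) (·.trans a2)), e, fun c => ?_⟩
  rw [Lw_eq, Lw_eq]
  refine congrArg _ (funext fun n => ?_)
  unfold cS An.cp
  split_ifs with x
  · rw [e n x]
  · simp

/-- **rationality of the depleted value** -/
theorem ratS (h : El A B) (f : Nf A B N G a) : ∃ S₀, Pm S₀ ∧ ∀ S, S₀ ⊆ S → Pm S →
    ∃ ρ : ℚ, Lw (P004M.TE.al A B) (cS S 1) = ρ * w0 A B := by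
  obtain ⟨S₀, a1, a2⟩ := al_off h f
  obtain ⟨ρ, e⟩ := rat0 h f
  refine ⟨S₀, a1, fun S k s => ⟨(∏ p ∈ (∏ p ∈ S, p).primeFactors,
    (1 - a p / p + if p ∣ N then 0 else (1 / p : ℚ))) * ρ, ?_⟩⟩
  rw [(a2 S k).2.2, Lw_dep (w := 1) f.rn (An.pw_const 1)
    (Finset.prod_ne_zero_iff.2 fun p m => (s p m).ne_zero)
    (by simp), Rat.cast_mul, mul_assoc, ← e, Rat.cast_prod]
  refine congrArg₂ _ (Finset.prod_congr rfl fun p _ => ?_) rfl
  rw [ef]
  split_ifs <;> simp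

end Vale.Agent.P014T.Lk
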