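import Vale.Agent.P004N.H169.EllB

/-! # P014T: finitely many Euler factors, explicitly -/

set_option autoImplicit false
set_option linter.all false

open Filter Topology

noncomputable section

namespace Vale.Agent.P014T.Lk

open P004N P004N.T8 P004N.H169

/-- the Euler factor at `p` -/
def Pp (A : ℕ → ℝ) (p : ℕ) (s : ℂ) : ℂ :=
  1 - A p * (p : ℂ) ^ (-s) + ((A p ^ 2 - A (p ^ 2) : ℝ) : ℂ) * (p : ℂ) ^ (-2 * s)

/-- the Euler factors at the primes of `S` -/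
def Pe (A : ℕ → ℝ) (S : ℕ) (s : ℂ) : ℂ := ∏ p ∈ S.primeFactors, Pp A p s

/-- the value at `s = 1` -/
def P1 (A : ℕ → ℝ) (p : ℕ) : ℝ := 1 - A p / p + (A p ^ 2 - A (p ^ 2)) / p ^ 2

variable {A A' : ℕ → ℝ} {p S r : ℕ} {s : ℂ} {L L' M M' : ℂ → ℂ}

theorem Pp_one (A : ℕ → ℝ) (p : ℕ) : Pp A p 1 = P1 A p := by
  rw [Pp, P1, mul_one, Complex.cpow_neg, Complex.cpow_neg, Complex.cpow_one, Complex.cpow_two]
  push_cast
  ring

theorem Pe_one (A : ℕ → ℝ) (S : ℕ) : Pe A S 1 = ((∏ p ∈ S.primeFactors, P1 A p : ℝ) : ℂ) := by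
  simp only [Pe, Pp_one, Complex.ofReal_prod]

theorem rel (h : LDr A) (hp : p.Prime) :
    (A p ^ 2 - A (p ^ 2) = p ∧ |A p| ≤ p + 1 ∨ A p ^ 2 - A (p ^ 2) = 0 ∧ |A p| ≤ 1) ∧
      ∀ n, A (p * n) = A p * A n - if p ∣ n then (A p ^ 2 - A (p ^ 2)) * A (n / p) else 0 := by
  obtain ⟨R, a, b⟩ := ldr_rel h hp
  have := b p
  rw [if_pos dvd_rfl, Nat.div_self hp.pos, h.one, ← sq, ← sq] at this
  obtain rfl : R = A p ^ 2 - A (p ^ 2) := by linarith
  exact ⟨a, b⟩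

theorem Pp_diff (A : ℕ → ℝ) (hp : p ≠ 0) : Differentiable ℂ (Pp A p) := fun s => by
  have q : (p : ℂ) ≠ 0 := Nat.cast_ne_zero.2 hp
  exact ((differentiableAt_const _).sub ((differentiableAt_id.neg.const_cpow (.inl q)).const_mul
    _)).add (((differentiableAt_id.const_mul _).const_cpow (.inl q)).const_mul _)

theorem Pe_diff (A : ℕ → ℝ) (S : ℕ) : Differentiable ℂ (Pe A S) :=
  Differentiable.fun_finset_prod fun p m => Pp_diff A (Nat.prime_of_mem_primeFactors m).ne_zero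

theorem Pp_ne (h : LDr A) (hp : p.Prime) (b : |A p| ≤ p) (hs : 1 ≤ s.re) : Pp A p s ≠ 0 := by
  have q : (p : ℂ) ≠ 0 := Nat.cast_ne_zero.2 hp.ne_zero
  have q2 : (2 : ℝ) ≤ p := by exact_mod_cast hp.two_le
  rw [Pp, show (p : ℂ) ^ (-2 * s) = ((p : ℂ) ^ (-s)) ^ 2 by
    rw [sq, ← Complex.cpow_add _ _ q]; congr 1; ring]
  refine factor_ne q2 ((rel h hp).1.imp_left fun a => ⟨a.1, b⟩) ?_
  rw [Complex.norm_natCast_cpow_of_pos hp.pos, Complex.neg_re, one_div, ← Real.rpow_neg_one]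
  exact Real.rpow_le_rpow_of_exponent_le (by linarith) (by linarith)

theorem Pe_ne (h : LDr A) (b : ∀ p : ℕ, p.Prime → p ∣ S → |A p| ≤ p) (hs : 1 ≤ s.re) :
    Pe A S s ≠ 0 := Finset.prod_ne_zero_iff.2 fun p m =>
  have k := Nat.mem_primeFactors.1 m
  Pp_ne h k.1 (b p k.1 k.2.1) hs

theorem ser0 (hs : 2 < s.re) (T : Finset ℕ) : (∀ p ∈ T, p.Prime) → ∀ A : ℕ → ℝ, LDr A →
    ∑' n : ℕ, ((if ∃ p ∈ T, p ∣ n then 0 else A n : ℝ) : ℂ) / (n : ℂ) ^ s =
      (∏ p ∈ T, Pp A p s) * ∑' n : ℕ, (A n : ℂ) / (n : ℂ) ^ s := by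
  induction T using Finset.induction_on with
  | empty => simp
  | insert q T m ih =>
    intro k A h
    have hq := k q (Finset.mem_insert_self _ _)
    have k' := fun p a => k p (Finset.mem_insert_of_mem a)
    have e := ih k' _ (LDr.incp h hq)
    rw [remove_series hq (rel h hq).2 (H503.Sum.sm_of_ldr h s hs),
      Finset.prod_congr rfl (g := fun p => Pp A p s) fun p a => by
        have n : ¬ q ∣ p := fun d => m ((Nat.prime_dvd_prime_iff_eq hq (k' p a)).1 d ▸ a)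
        simp only [Pp, incp, if_neg n, if_neg (mt hq.dvd_of_dvd_pow n)]] at e
    rw [Finset.prod_insert m, mul_comm (Pp A q s), mul_assoc]
    refine Eq.trans (tsum_congr fun n => ?_) e
    simp only [Finset.exists_mem_insert, incp]
    by_cases a : q ∣ n <;> simp [a]

/-- **the depleted series** -/
theorem ser (h : LDr A) (S0 : S ≠ 0) (hs : 2 < s.re) :
    ∑' n : ℕ, (inc S A n : ℂ) / (n : ℂ) ^ s = Pe A S s * ∑' n : ℕ, (A n : ℂ) / (n : ℂ) ^ s := by
  rw [Pe, ← ser0 hs _ (fun p => Nat.prime_of_mem_primeFactors) A h]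
  refine tsum_congr fun n => ?_
  rw [inc, ← ite_not, if_congr (Nat.Prime.not_coprime_iff_dvd.trans (exists_congr fun p =>
    show _ ↔ p ∈ S.primeFactors ∧ p ∣ n by rw [Nat.mem_primeFactors]; tauto)) rfl rfl]

theorem m1 : (1 : ℂ) ∈ {s : ℂ | 1 ≤ s.re} := by simp

/-- two continuations agree near `1` -/
theorem ev (h : IsLh A L) (h' : IsLh A L') : L =ᶠ[𝓝 1] L' :=
  ((h.1 1 m1).frequently_eq_iff_eventually_eq (h'.1 1 m1)).1 (by
    have t : Tendsto (fun x : ℝ => (x : ℂ)) (𝓝[>] 1) (𝓝[≠] 1) :=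
      tendsto_nhdsWithin_iff.2 ⟨(Complex.continuous_ofReal.tendsto' 1 1 rfl).mono_left
        nhdsWithin_le_nhds, eventually_mem_nhdsWithin.mono fun x (k : 1 < x) (e : (x : ℂ) = 1) =>
          k.ne' (by exact_mod_cast e)⟩
    exact t.frequently (Eventually.frequently (eventually_mem_nhdsWithin.mono fun x (k : 1 < x) =>
      (h.order_eq h').1 _ (by simpa using k.le))))

theorem der (h : IsLh A L) (h' : IsLh A L') (r : ℕ) : iteratedDeriv r L 1 = iteratedDeriv r L' 1 :=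
  (ev h h').iteratedDeriv_eq r

/-- removing factors -/
theorem down (h : LDr A) (S0 : S ≠ 0) (hL : IsLh A L) : IsLh (inc S A) fun s => Pe A S s * L s :=
  ⟨fun s k => ((Pe_diff A S).analyticAt s).mul (hL.1 s k),
    fun s k => by rw [ser h S0 k, ← hL.2 s k]⟩

/-- putting factors back -/
theorem up (h : LDr A) (S0 : S ≠ 0) (b : ∀ p : ℕ, p.Prime → p ∣ S → |A p| ≤ p)
    (hM : IsLh (inc S A) M) : IsLh A fun s => M s / Pe A S s :=
  ⟨fun s k => (hM.1 s k).div ((Pe_diff A S).analyticAt s) (Pe_ne h b k), fun s k => by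
    show M s / _ = _
    rw [hM.2 s k, ser h S0 k, mul_div_cancel_left₀ _ (Pe_ne h b (by linarith))]⟩

theorem lead {f g : ℂ → ℂ} {z : ℂ} (hf : AnalyticAt ℂ f z) (hg : AnalyticAt ℂ g z)
    (o : (r : ℕ∞) ≤ analyticOrderAt g z) :
    iteratedDeriv r (fun s => f s * g s) z = f z * iteratedDeriv r g z := by
  rw [iteratedDeriv_fun_mul hf.contDiffAt hg.contDiffAt, Finset.sum_range_succ',
    Finset.sum_eq_zero fun i m => by
      rw [(natCast_le_analyticOrderAt_iff_iteratedDeriv_eq_zero hg).1 o _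
        (by have := Finset.mem_range.1 m; omega), mul_zero]]
  simp

/-- **Euler factors**: values, orders, leading terms -/
theorem eul (h : LDr A) (S0 : S ≠ 0) (b : ∀ p : ℕ, p.Prime → p ∣ S → |A p| ≤ p) (hL : IsLh A L)
    (hM : IsLh (inc S A) M) : (∀ s : ℂ, 1 ≤ s.re → M s = Pe A S s * L s) ∧
    analyticOrderAt M 1 = analyticOrderAt L 1 ∧ ∀ r : ℕ, (r : ℕ∞) ≤ analyticOrderAt L 1 →
      iteratedDeriv r M 1 = (∏ p ∈ S.primeFactors, P1 A p : ℝ) * iteratedDeriv r L 1 := by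
  have d := down h S0 hL
  have a := (Pe_diff A S).analyticAt 1
  refine ⟨(hM.order_eq d).1, ?_, fun r o => ?_⟩
  · rw [(hM.order_eq d).2]
    refine (analyticOrderAt_mul a (hL.1 1 m1)).trans ?_
    rw [a.analyticOrderAt_eq_zero.2 (Pe_ne h b m1), zero_add]
  · rw [der hM d, lead a (hL.1 1 m1) o, Pe_one]

theorem P1_pos (h : LDr A) (hp : p.Prime) (b : |A p| ≤ p) : 0 < P1 A p := by
  have q : (2 : ℝ) ≤ p := by exact_mod_cast hp.two_le
  have c := (abs_le.1 b).2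
  rw [P1]
  rcases (rel h hp).1 with ⟨e, -⟩ | ⟨e, k⟩ <;> rw [e]
  · have : A p / p ≤ 1 := (div_le_one (by linarith)).2 c
    have : (0 : ℝ) < p / p ^ 2 := by positivity
    linarith
  · have : A p / p < 1 := (div_lt_one (by linarith)).2 (by linarith [(abs_le.1 k).2])
    rw [zero_div]
    linarith

/-- **two Euler products which agree outside `S`** -/
theorem cmp (h : LDr A) (h' : LDr A') (S0 : S ≠ 0) (b : ∀ p : ℕ, p.Prime → p ∣ S → |A p| ≤ p)
    (b' : ∀ p : ℕ, p.Prime → p ∣ S → |A' p| ≤ p) (e : inc S A = inc S A') (hL : IsLh A L)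
    (hL' : IsLh A' L') : analyticOrderAt L 1 = analyticOrderAt L' 1 ∧
    ∀ r : ℕ, (r : ℕ∞) ≤ analyticOrderAt L 1 →
      (∏ p ∈ S.primeFactors, P1 A p : ℝ) * iteratedDeriv r L 1 =
        (∏ p ∈ S.primeFactors, P1 A' p : ℝ) * iteratedDeriv r L' 1 := by
  obtain ⟨-, a1, a2⟩ := eul h S0 b hL (down h S0 hL)
  obtain ⟨-, b1, b2⟩ := eul h' S0 b' hL' (e ▸ down h S0 hL)
  have k := a1.symm.trans b1
  exact ⟨k, fun r o => (a2 r o).symm.trans (b2 r (k ▸ o))⟩

end Vale.Agent.P014T.Lk
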